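import Vale.Agent.P181.Z.H502.LmJ

set_option autoImplicit false

/-!
Covariants on the rows `1, .., k`: the algebraic part.
-/

namespace Vale.Agent.P181.Z502

open MvPolynomial Vale.Agent.P181 Vale.Agent.P181.H280 Vale.Agent.P181.H530.Torus
  Vale.Agent.P181.T4 Vale.Agent.P181.FR Vale.Agent.P181.Z.H592

section Det

variable {R : Type*} [CommRing R] [Algebra ℂ R]

/-- A derivation of a determinant. -/
lemma deriv_det {q : ℕ} (D : Derivation ℂ R R) (M : Matrix (Fin q) (Fin q) R) :
    D M.det = ∑ b, (M.updateCol b (fun a => D (M a b))).det := by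
  simp only [Matrix.det_apply']
  rw [map_sum, Finset.sum_comm]
  refine Finset.sum_congr rfl fun σ _ => ?_
  have h1 : D (((Equiv.Perm.sign σ : ℤ) : R) * ∏ i, M (σ i) i) =
      ((Equiv.Perm.sign σ : ℤ) : R) * D (∏ i, M (σ i) i) := by
    rw [Derivation.leibniz, Derivation.map_intCast, smul_zero, add_zero, smul_eq_mul]
  rw [h1, Z.H592.deriv_prod, Finset.mul_sum]
  refine Finset.sum_congr rfl fun b _ => ?_
  congr 1
  rw [← Finset.mul_prod_erase _ _ (Finset.mem_univ b), mul_comm]
  congr 1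
  · rw [Matrix.updateCol_apply, if_pos rfl]
  · refine Finset.prod_congr rfl fun i hi => ?_
    rw [Matrix.updateCol_apply, if_neg (Finset.ne_of_mem_erase hi)]

lemma deriv_mul_zero {D : Derivation ℂ R R} {f g : R} (hf : D f = 0) (hg : D g = 0) :
    D (f * g) = 0 := by
  rw [Derivation.leibniz, hf, hg, smul_zero, smul_zero, add_zero]

lemma deriv_pow_zero {D : Derivation ℂ R R} {f : R} (hf : D f = 0) (k : ℕ) : D (f ^ k) = 0 := by
  rw [Derivation.leibniz_pow, hf, smul_zero, smul_zero]

lemma deriv_prod_zero {D : Derivation ℂ R R} {κ : Type} [DecidableEq κ] (s : Finset κ) (f : κ → R)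
    (hf : ∀ j ∈ s, D (f j) = 0) : D (∏ j ∈ s, f j) = 0 := by
  rw [Z.H592.deriv_prod]
  refine Finset.sum_eq_zero fun j hj => ?_
  rw [hf j hj, mul_zero]

lemma deriv_mul_left {D : Derivation ℂ R R} {f g : R} (hg : D g = 0) :
    D (f * g) = D f * g := by
  rw [Derivation.leibniz, hg, smul_zero, zero_add, smul_eq_mul, mul_comm]

end Det

variable {n k : ℕ} {J : Type} [Fintype J] [DecidableEq J]

/-- The minor of the columns `c` at the points `g`. -/
noncomputable def mn (c : Fin (k + 1) → Fin n) (g : Fin (k + 1) → J) :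
    MvPolynomial (Fin n × J) ℂ := Matrix.det (Matrix.of fun a b => X (c b, g a))

omit [DecidableEq J] in
lemma rJ_mn (c : Fin (k + 1) → Fin n) (g : Fin (k + 1) → J)
    (s i : Fin n) (hsi : s ≠ i) (h : (∃ b, c b = s) ∨ ∀ b, c b ≠ i) :
    rJ J s i (mn c g) = 0 := by
  classical
  unfold mn
  rw [deriv_det]
  refine Finset.sum_eq_zero fun b _ => ?_
  have e : (fun a => rJ J s i ((Matrix.of fun a b => (X (c b, g a) :
      MvPolynomial (Fin n × J) ℂ)) a b)) = fun a => if c b = i then X (s, g a) else 0 := by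
    funext a
    rw [Matrix.of_apply, rJ_X]
  rw [e]
  by_cases hb : c b = i
  · rcases h with ⟨b1, hb1⟩ | h
    · have hne : b1 ≠ b := fun h => hsi (by rw [← hb1, h, hb])
      apply Matrix.det_zero_of_column_eq hne
      intro a
      rw [Matrix.updateCol_apply, Matrix.updateCol_apply, if_neg hne, if_pos rfl, if_pos hb,
        Matrix.of_apply, hb1]
    · exact absurd hb (h b)
  · apply Matrix.det_eq_zero_of_column_eq_zero b
    intro a
    rw [Matrix.updateCol_apply, if_pos rfl, if_neg hb]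

/-- The two by two minor. -/
noncomputable def m2 (u v : Fin n) (p q : J) : MvPolynomial (Fin n × J) ℂ :=
  X (u, p) * X (v, q) - X (v, p) * X (u, q)

omit [DecidableEq J] in
lemma rJ_m2 (u v s i : Fin n) (p q : J) :
    rJ J s i (m2 u v p q) =
      (if v = i then m2 u s p q else 0) + if u = i then m2 s v p q else 0 := by
  unfold m2
  rw [map_sub, Derivation.leibniz, Derivation.leibniz]
  simp only [rJ_X, smul_eq_mul]
  split_ifs <;> ring

omit [Fintype J] in
/-- weighted homogeneity of the minors. -/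
lemma mn_wt (c : Fin (k + 1) → Fin n) (g : Fin (k + 1) → J) :
    IsWeightedHomogeneous (wJ (J := J)) (mn c g)
      (∑ a, Pi.single (g a) 1, ∑ b, Pi.single (c b) 1) := by
  unfold mn
  rw [Matrix.det_apply']
  apply IsWeightedHomogeneous.sum
  intro σ _
  have h1 : IsWeightedHomogeneous (wJ (J := J))
      (∏ b, (Matrix.of fun a b => (X (c b, g a) : MvPolynomial (Fin n × J) ℂ)) (σ b) b)
      (∑ b, (Pi.single (g (σ b)) 1, Pi.single (c b) 1)) := by
    apply IsWeightedHomogeneous.prod
    intro b _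
    rw [Matrix.of_apply]
    exact isWeightedHomogeneous_X ℂ _ _
  have h2 : (∑ b, ((Pi.single (g (σ b)) 1, Pi.single (c b) 1) : (J → ℕ) × (Fin n → ℕ))) =
      (∑ a, Pi.single (g a) 1, ∑ b, Pi.single (c b) 1) := by
    apply Prod.ext
    · rw [Prod.fst_sum]
      exact Equiv.sum_comp σ (fun b => (Pi.single (g b) 1 : J → ℕ))
    · rw [Prod.snd_sum]
  rw [h2] at h1
  have h3 : (((Equiv.Perm.sign σ : ℤ) : ℤ) : MvPolynomial (Fin n × J) ℂ) =
      C (((Equiv.Perm.sign σ : ℤ)) : ℂ) := by
    rw [map_intCast]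
  rw [h3]
  have h4 := (isWeightedHomogeneous_C (wJ (n := n) (J := J)) (((Equiv.Perm.sign σ : ℤ)) : ℂ)).mul h1
  rwa [zero_add] at h4

omit [Fintype J] in
lemma m2_wt (u v : Fin n) (p q : J) :
    IsWeightedHomogeneous (wJ (J := J)) (m2 u v p q)
      (Pi.single p 1 + Pi.single q 1, Pi.single u 1 + Pi.single v 1) := by
  unfold m2
  have h1 := (isWeightedHomogeneous_X ℂ (wJ (J := J)) ((u, p) : Fin n × J)).mul
    (isWeightedHomogeneous_X ℂ (wJ (J := J)) ((v, q) : Fin n × J))
  have h2 := (isWeightedHomogeneous_X ℂ (wJ (J := J)) ((v, p) : Fin n × J)).mul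
    (isWeightedHomogeneous_X ℂ (wJ (J := J)) ((u, q) : Fin n × J))
  have e2 : wJ (J := J) ((v, p) : Fin n × J) + wJ (J := J) (u, q) =
      wJ (J := J) ((u, p) : Fin n × J) + wJ (J := J) (v, q) := by
    apply Prod.ext
    · rfl
    · exact add_comm _ _
  rw [e2] at h2
  exact h1.sub h2

end Vale.Agent.P181.Z502
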