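import Vale.Agent.P181.Z.H502.Cov

set_option autoImplicit false

/-!
Covariants on the rows `1, .., k`: the elements.
-/

namespace Vale.Agent.P181.Z502

open MvPolynomial Vale.Agent.P181 Vale.Agent.P181.H280 Vale.Agent.P181.H530.Torus
  Vale.Agent.P181.T4 Vale.Agent.P181.FR Vale.Agent.P181.Z.H592

variable {n k : ℕ}

/-- The points. -/
abbrev JJ (m k : ℕ) : Type := Fin 2 ⊕ (Fin m × Fin k)

/-- The points of the minor `s`. -/
def gs {m k : ℕ} (s : Fin m) : Fin (k + 1) → JJ m k :=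
  Fin.cons (Sum.inl 0) (fun b => Sum.inr (s, b))

/-- The function of points. -/
noncomputable def FF (hk : k + 1 ≤ n + 1) (a m : ℕ) (t : Fin (n + 1)) :
    MvPolynomial (Fin (n + 1) × JJ m k) ℂ :=
  m2 0 t (Sum.inl 0) (Sum.inl 1) * (∏ s : Fin m, mn (Fin.castLE hk) (gs s) ^ 2) *
    (X (0, Sum.inl 0) ^ (a - 1 - 2 * m) * X (0, Sum.inl 1) ^ (a - 1) *
      ∏ x : Fin m × Fin k, X (0, Sum.inr x) ^ (a - 2))

/-- The weight of the rows `0, .., k`. -/
noncomputable def blk (hk : k + 1 ≤ n + 1) : Fin (n + 1) → ℕ :=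
  ∑ b : Fin (k + 1), Pi.single (Fin.castLE hk b) 1

/-- The weight of `FF`. -/
noncomputable def muF (hk : k + 1 ≤ n + 1) (a m : ℕ) (t : Fin (n + 1)) : Fin (n + 1) → ℕ :=
  Pi.single 0 1 + Pi.single t 1 + m • (2 • blk hk) +
    ((a - 1 - 2 * m) • Pi.single 0 1 + (a - 1) • Pi.single 0 1 +
      (m * k) • ((a - 2) • Pi.single 0 1))

lemma FF_wt (hk : k + 1 ≤ n + 1) {a m : ℕ} (ha : 2 ≤ a) (ham : 2 * m + 1 ≤ a) (t : Fin (n + 1)) :
    IsWeightedHomogeneous (wJ (J := JJ m k)) (FF hk a m t) (fun _ => a, muF hk a m t) := by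
  have h1 := m2_wt (n := n + 1) 0 t (Sum.inl 0 : JJ m k) (Sum.inl 1)
  have h2 : IsWeightedHomogeneous (wJ (J := JJ m k))
      (∏ s : Fin m, mn (Fin.castLE hk) (gs s : Fin (k + 1) → JJ m k) ^ 2)
      (∑ s : Fin m, 2 • (∑ a, Pi.single (gs s a : JJ m k) 1, blk hk)) :=
    IsWeightedHomogeneous.prod _ _ _ fun s _ => (mn_wt (Fin.castLE hk) (gs s)).pow 2
  have h3 := (isWeightedHomogeneous_X ℂ (wJ (n := n + 1) (J := JJ m k)) (0, Sum.inl 0)).pow
    (a - 1 - 2 * m)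
  have h4 := (isWeightedHomogeneous_X ℂ (wJ (n := n + 1) (J := JJ m k)) (0, Sum.inl 1)).pow (a - 1)
  have h5 : IsWeightedHomogeneous (wJ (J := JJ m k))
      (∏ x : Fin m × Fin k, (X (0, Sum.inr x) : MvPolynomial (Fin (n + 1) × JJ m k) ℂ) ^ (a - 2))
      (∑ x : Fin m × Fin k, (a - 2) • wJ (J := JJ m k) (0, Sum.inr x)) :=
    IsWeightedHomogeneous.prod _ _ _ fun x _ =>
      (isWeightedHomogeneous_X ℂ (wJ (n := n + 1) (J := JJ m k)) (0, Sum.inr x)).pow (a - 2)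
  have h6 := (h1.mul h2).mul ((h3.mul h4).mul h5)
  unfold FF
  convert h6 using 1
  apply Prod.ext
  · funext j
    simp only [Prod.fst_add, Prod.fst_sum, Prod.smul_fst, Pi.add_apply, Finset.sum_apply,
      Pi.smul_apply, smul_eq_mul, wJ]
    have e1 : ∀ s : Fin m, ∑ c : Fin (k + 1), (Pi.single (gs s c : JJ m k) 1 : JJ m k → ℕ) j =
        (Pi.single (Sum.inl 0 : JJ m k) 1 : JJ m k → ℕ) j +
          ∑ b : Fin k, (Pi.single (Sum.inr (s, b) : JJ m k) 1 : JJ m k → ℕ) j := by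
      intro s
      rw [Fin.sum_univ_succ]
      rfl
    simp only [e1]
    rcases j with j | ⟨s', b'⟩
    · simp only [Pi.single_apply, Sum.inl.injEq, reduceCtorEq, if_false, Finset.sum_const_zero]
      fin_cases j
      · simp
        omega
      · simp
        omega
    · simp only [Pi.single_apply, Sum.inr.injEq, Prod.mk.injEq, reduceCtorEq, if_false,
        Finset.sum_const_zero, zero_add, mul_zero]
      have e2 : ∀ s : Fin m, ∑ b : Fin k, (if s' = s ∧ b' = b then 1 else 0) =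
          if s' = s then 1 else 0 := by
        intro s
        by_cases hs : s' = s
        · simp [hs]
        · simp [hs]
      simp only [e2]
      rw [Finset.sum_eq_single s', if_pos rfl]
      · rw [Finset.sum_eq_single (s', b'), if_pos rfl]
        · omega
        · intro x _ hx
          rw [if_neg (Ne.symm hx), mul_zero]
        · intro h
          exact absurd (Finset.mem_univ _) h
      · intro s _ hs
        rw [if_neg (Ne.symm hs), mul_zero]
      · intro h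
        exact absurd (Finset.mem_univ _) h
  · simp only [Prod.snd_add, Prod.snd_sum, Prod.smul_snd, wJ, Finset.sum_const, Finset.card_univ,
      Fintype.card_fin, Fintype.card_prod]
    rfl

/-- The covariant vector. -/
noncomputable def LL (hk : k + 1 ≤ n + 1) (a m : ℕ) (t : Fin (n + 1)) : A (n + 1) :=
  lmJ (n + 1) (JJ m k) (FF hk a m t)

lemma LL_mem (hk : k + 1 ≤ n + 1) {a m : ℕ} (ha : 2 ≤ a) (ham : 2 * m + 1 ≤ a)
    (t : Fin (n + 1)) : LL hk a m t ∈ WA (n + 1) (2 + m * k) a (muF hk a m t) :=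
  lmJ_mem_WA (by simp [JJ]) (FF_wt hk ha ham t)

lemma m2_self {J : Type} (u : Fin (n + 1)) (p q : J) : m2 u u p q = 0 := by
  unfold m2
  ring

lemma rJ_X0 {J : Type} [Fintype J] {s i : Fin (n + 1)} (hi : i ≠ 0) (p : J) (e : ℕ) :
    rJ J s i (X ((0 : Fin (n + 1)), p) ^ e) = 0 := by
  apply deriv_pow_zero
  rw [rJ_X, if_neg (Ne.symm hi)]

/-- The operators which kill the squares of the minors. -/
def good (hk : k + 1 ≤ n + 1) (s i : Fin (n + 1)) : Prop :=
  s ≠ i ∧ i ≠ 0 ∧ ((∃ b, Fin.castLE hk b = s) ∨ ∀ b, Fin.castLE hk b ≠ i)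

lemma good_up (hk : k + 1 ≤ n + 1) {s i : Fin (n + 1)} (h : s < i) : good hk s i := by
  refine ⟨h.ne, Fin.ne_zero_of_lt h, ?_⟩
  by_cases hs : (s : ℕ) < k + 1
  · exact Or.inl ⟨⟨s, hs⟩, rfl⟩
  · refine Or.inr fun b hb => ?_
    have h1 : (i : ℕ) = b := by rw [← hb]; rfl
    have := b.2
    have := Fin.lt_def.1 h
    omega

lemma rJ_FF (hk : k + 1 ≤ n + 1) (a m : ℕ) (t : Fin (n + 1)) {s i : Fin (n + 1)}
    (h : good hk s i) :
    rJ (JJ m k) s i (FF hk a m t) = if t = i then FF hk a m s else 0 := by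
  unfold FF
  rw [deriv_mul_left, deriv_mul_left, rJ_m2, if_neg (Ne.symm h.2.1), add_zero]
  · split_ifs
    · rfl
    · rw [zero_mul, zero_mul]
  · exact deriv_prod_zero _ _ fun s _ => deriv_pow_zero (rJ_mn _ _ _ _ h.1 h.2.2) 2
  · exact deriv_mul_zero (deriv_mul_zero (rJ_X0 h.2.1 _ _) (rJ_X0 h.2.1 _ _))
      (deriv_prod_zero _ _ fun x _ => rJ_X0 h.2.1 _ _)

lemma E_LL (hk : k + 1 ≤ n + 1) (a m : ℕ) (t : Fin (n + 1)) {s i : Fin (n + 1)}
    (h : good hk s i) :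
    E s i (LL hk a m t) = if t = i then LL hk a m s else 0 := by
  unfold LL
  rw [← lmJ_rJ, rJ_FF hk a m t h]
  split_ifs
  · rfl
  · rw [map_zero]

lemma LL_zero (hk : k + 1 ≤ n + 1) (a m : ℕ) : LL hk a m 0 = 0 := by
  unfold LL FF
  rw [m2_self, zero_mul, zero_mul, map_zero]

/-- The Hessian minor. -/
noncomputable def dd (hk : k + 1 ≤ n + 1) (a : ℕ) : A (n + 1) :=
  lmJ (n + 1) (Fin (k + 1)) (mn (Fin.castLE hk) id ^ 2 * ∏ j, X (0, j) ^ (a - 2))

lemma dd_mem (hk : k + 1 ≤ n + 1) {a : ℕ} (ha : 2 ≤ a) :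
    dd hk a ∈ WA (n + 1) (k + 1) a (2 • blk hk + (k + 1) • ((a - 2) • Pi.single 0 1)) := by
  apply lmJ_mem_WA (by simp)
  have h1 := (mn_wt (Fin.castLE hk) (id : Fin (k + 1) → Fin (k + 1))).pow 2
  have h5 : IsWeightedHomogeneous (wJ (J := Fin (k + 1)))
      (∏ x, (X (0, x) : MvPolynomial (Fin (n + 1) × Fin (k + 1)) ℂ) ^ (a - 2))
      (∑ x, (a - 2) • wJ (J := Fin (k + 1)) (0, x)) :=
    IsWeightedHomogeneous.prod _ _ _ fun x _ =>
      (isWeightedHomogeneous_X ℂ (wJ (n := n + 1) (J := Fin (k + 1))) (0, x)).pow (a - 2)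
  convert h1.mul h5 using 1
  apply Prod.ext
  · funext j
    simp only [Prod.fst_add, Prod.fst_sum, Prod.smul_fst, Pi.add_apply, Finset.sum_apply,
      Pi.smul_apply, smul_eq_mul, wJ, Pi.single_apply, id]
    rw [Finset.sum_ite_eq, if_pos (Finset.mem_univ _), Finset.sum_eq_single j, if_pos rfl]
    · omega
    · intro x _ hx
      rw [if_neg (Ne.symm hx), mul_zero]
    · intro h
      exact absurd (Finset.mem_univ _) h
  · simp only [Prod.snd_add, Prod.snd_sum, Prod.smul_snd, wJ, Finset.sum_const, Finset.card_univ,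
      Fintype.card_fin]
    rfl

lemma E_dd (hk : k + 1 ≤ n + 1) (a : ℕ) {s i : Fin (n + 1)} (h : good hk s i) :
    E s i (dd hk a) = 0 := by
  unfold dd
  rw [← lmJ_rJ, deriv_mul_zero, map_zero]
  · exact deriv_pow_zero (rJ_mn _ _ _ _ h.1 h.2.2) 2
  · exact deriv_prod_zero _ _ fun x _ => rJ_X0 h.2.1 _ _

/-- The first letter. -/
noncomputable def xx (n a : ℕ) : A (n + 1) := lmJ (n + 1) (Fin 1) (X (0, 0) ^ a)

lemma xx_mem (n a : ℕ) : xx n a ∈ WA (n + 1) 1 a (a • Pi.single 0 1) := by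
  apply lmJ_mem_WA (by simp)
  have h1 := (isWeightedHomogeneous_X ℂ (wJ (n := n + 1) (J := Fin 1)) (0, 0)).pow a
  convert h1 using 1
  apply Prod.ext
  · funext j
    have : j = 0 := Subsingleton.elim _ _
    subst this
    simp [wJ]
  · rfl

lemma E_xx (n a : ℕ) {s i : Fin (n + 1)} (hi : i ≠ 0) : E s i (xx n a) = 0 := by
  unfold xx
  rw [← lmJ_rJ, rJ_X0 hi, map_zero]

/-- The covariants. -/
noncomputable def lk (hk : k + 1 ≤ n + 1) (a m : ℕ) (t : Fin (n + 1)) : A (n + 1) :=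
  dd hk a ^ (k - m) * LL hk a m t * xx n a ^ m

/-- The weight. -/
noncomputable def nu (hk : k + 1 ≤ n + 1) (a : ℕ) (t : Fin (n + 1)) : Fin (n + 1) → ℕ :=
  (k * (k + 1) * (a - 2) + 2 * (a - 2) + 3) • Pi.single 0 1 + Pi.single t 1 + (2 * k) • blk hk

lemma lk_mem_WA (hk : k + 1 ≤ n + 1) {a m : ℕ} (hm : m ≤ k) (ha : 2 ≤ a) (ham : 2 * m + 1 ≤ a)
    (t : Fin (n + 1)) : lk hk a m t ∈ WA (n + 1) (2 + k * (k + 1)) a (nu hk a t) := by
  have h1 := mul_mem_WA (mul_mem_WA (pow_mem_WA (dd_mem hk ha) (k - m)) (LL_mem hk ha ham t))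
    (pow_mem_WA (xx_mem n a) m)
  have e1 : (k - m) * (k + 1) + (2 + m * k) + m * 1 = 2 + k * (k + 1) := by
    obtain ⟨u, rfl⟩ := Nat.exists_eq_add_of_le hm
    rw [Nat.add_sub_cancel_left]
    ring
  have e2 : (k - m) • (2 • blk hk + (k + 1) • ((a - 2) • Pi.single 0 1)) + muF hk a m t +
      m • (a • Pi.single 0 1) = nu hk a t := by
    obtain ⟨u, rfl⟩ := Nat.exists_eq_add_of_le hm
    obtain ⟨a', rfl⟩ := Nat.exists_eq_add_of_le ha
    rw [Nat.add_sub_cancel_left]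
    unfold muF nu
    funext i
    simp only [Pi.add_apply, Pi.smul_apply, smul_eq_mul]
    generalize blk hk i = b
    generalize (Pi.single 0 1 : Fin (n + 1) → ℕ) i = z
    generalize (Pi.single t 1 : Fin (n + 1) → ℕ) i = y
    obtain ⟨w, hw⟩ : ∃ w, 2 + a' - 1 = 2 * m + w := ⟨2 + a' - 1 - 2 * m, by omega⟩
    have e3 : 2 + a' - 1 - 2 * m = w := by omega
    have e4 : 2 + a' - 2 = a' := by omega
    have e5 : a' + 1 = 2 * m + w := by omega
    rw [e3, e4, hw]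
    have e6 : (w + (2 * m + w)) = (2 * (a' + 1) - 2 * m) := by omega
    zify at e5 ⊢
    have e7 : (w : ℤ) = a' + 1 - 2 * m := by linarith
    rw [e7]
    ring
  rw [e1, e2] at h1
  exact h1

lemma E_lk (hk : k + 1 ≤ n + 1) (a m : ℕ) (t : Fin (n + 1)) {s i : Fin (n + 1)}
    (h : good hk s i) :
    E s i (lk hk a m t) = if t = i then lk hk a m s else 0 := by
  unfold lk
  rw [Derivation.leibniz, Derivation.leibniz, deriv_pow_zero (E_dd hk a h),
    deriv_pow_zero (E_xx n a h.2.1), E_LL hk a m t h]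
  simp only [smul_eq_mul, mul_zero, add_zero, zero_add]
  split_ifs
  · ring
  · ring

lemma lk_zero (hk : k + 1 ≤ n + 1) (a m : ℕ) : lk hk a m 0 = 0 := by
  unfold lk
  rw [LL_zero, mul_zero, zero_mul]

/-- Highest weight vectors. -/
theorem lk_mem_HA (hk : k + 1 ≤ n + 1) {a m : ℕ} (hm : m ≤ k) (ha : 2 ≤ a) (ham : 2 * m + 1 ≤ a)
    (t : Fin (n + 1)) (ht : (t : ℕ) = 1) :
    lk hk a m t ∈ HA (n + 1) (2 + k * (k + 1)) a (nu hk a t) := by
  refine mem_HA.2 ⟨lk_mem_WA hk hm ha ham t, fun s i hsi => ?_⟩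
  rw [E_lk hk a m t (good_up hk hsi)]
  split_ifs with h1
  · have h2 : s = 0 := by
      apply Fin.ext
      rw [← h1] at hsi
      have := Fin.lt_def.1 hsi
      rw [Fin.val_zero]
      omega
    rw [h2, lk_zero]
  · rfl

end Vale.Agent.P181.Z502
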