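import Vale.Agent.P181.Z.H502.Cov2

set_option autoImplicit false

/-!
Covariants on the rows `1, .., k`: values at a simplex with distinct masses; the determinant.
-/

namespace Vale.Agent.P181.Z502

open MvPolynomial Vale.Agent.P181 Vale.Agent.P181.H280 Vale.Agent.P181.H530.Torus
  Vale.Agent.P181.T4 Vale.Agent.P181.FR Vale.Agent.P181.Z.H592

variable {n k : ℕ}

/-- The vertices of the simplex. -/
noncomputable def PP (n : ℕ) (s : Fin (k + 1)) : Fin (n + 1) → ℂ :=
  fun i => if (i : ℕ) = 0 ∨ (i : ℕ) = (s : ℕ) then 1 else 0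

lemma PP_zero (s : Fin (k + 1)) : PP n s 0 = 1 := by
  simp [PP]

/-- The masses. -/
noncomputable def ww (s : Fin (k + 1)) : ℂ := ((s : ℕ) : ℂ) + 1

lemma ww_ne (s : Fin (k + 1)) : ww s ≠ 0 := by
  have h : ((((s : ℕ) + 1 : ℕ)) : ℂ) ≠ 0 := Nat.cast_ne_zero.2 (Nat.succ_ne_zero _)
  rw [Nat.cast_add, Nat.cast_one] at h
  exact h

lemma ww_inj : Function.Injective (ww : Fin (k + 1) → ℂ) := by
  intro s t h
  unfold ww at h
  have h1 : ((s : ℕ) : ℂ) = ((t : ℕ) : ℂ) := by linear_combination h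
  exact Fin.ext (Nat.cast_injective h1)

lemma sum_ww_ne : ∑ s : Fin (k + 1), ww s ≠ 0 := by
  unfold ww
  have h : ∑ s : Fin (k + 1), (((s : ℕ) : ℂ) + 1) = ((∑ s : Fin (k + 1), ((s : ℕ) + 1) : ℕ) : ℂ) := by
    push_cast
    rfl
  rw [h, Nat.cast_ne_zero]
  have h1 : 0 < ∑ s : Fin (k + 1), ((s : ℕ) + 1) :=
    Finset.sum_pos (fun s _ => Nat.succ_pos _) ⟨0, Finset.mem_univ _⟩
  omega

/-- The minor at the vertices. -/
noncomputable def dt (g : Fin (k + 1) → Fin (k + 1)) : ℂ :=
  Matrix.det (Matrix.of fun a b : Fin (k + 1) =>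
    if (b : ℕ) = 0 ∨ (b : ℕ) = (g a : ℕ) then (1 : ℂ) else 0)

lemma dt_id : dt (id : Fin (k + 1) → Fin (k + 1)) = 1 := by
  unfold dt
  rw [Matrix.det_of_isLowerTriangular]
  · apply Finset.prod_eq_one
    intro i _
    simp
  · intro a b hab
    have h1 : a < b := by simpa using hab
    rw [Matrix.of_apply, if_neg]
    have := Fin.lt_def.1 h1
    simp only [id]
    omega

lemma dt_perm (σ : Equiv.Perm (Fin (k + 1))) : dt (fun a => σ a) ^ 2 = 1 := by
  have h := Matrix.det_permute σ (Matrix.of fun a b : Fin (k + 1) =>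
    if (b : ℕ) = 0 ∨ (b : ℕ) = ((id a : Fin (k + 1)) : ℕ) then (1 : ℂ) else 0)
  have h1 : dt (fun a => σ a) = (Equiv.Perm.sign σ : ℤ) * dt (id : Fin (k + 1) → Fin (k + 1)) := by
    unfold dt
    rw [← h]
    rfl
  rw [h1, dt_id, mul_one]
  rcases Int.units_eq_one_or (Equiv.Perm.sign σ) with h2 | h2
  · rw [h2]; simp
  · rw [h2]; simp

lemma dt_not_inj {g : Fin (k + 1) → Fin (k + 1)} (hg : ¬ Function.Injective g) : dt g = 0 := by
  rw [Function.not_injective_iff] at hg
  obtain ⟨a, b, h1, h2⟩ := hg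
  unfold dt
  apply Matrix.det_zero_of_row_eq h2
  funext c
  simp only [Matrix.of_apply, h1]

/-- The product of all masses. -/
noncomputable def WW (k : ℕ) : ℂ := ∏ s : Fin (k + 1), ww s

lemma WW_ne : WW k ≠ 0 := by
  unfold WW
  rw [Finset.prod_ne_zero_iff]
  exact fun s _ => ww_ne s

/-- The integral over the other points. -/
noncomputable def EE (t : Fin (k + 1)) : ℂ :=
  ∑ h : Fin k → Fin (k + 1), (∏ b, ww (h b)) * dt (Fin.cons t h) ^ 2

/-- The number of completions. -/
noncomputable def cnt (t : Fin (k + 1)) : ℕ := by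
  classical
  exact (Finset.univ.filter fun h : Fin k → Fin (k + 1) =>
    Function.Injective (Fin.cons t h : Fin (k + 1) → Fin (k + 1))).card

lemma cons_comp {t u : Fin (k + 1)} (σ : Equiv.Perm (Fin (k + 1))) (hσ : σ t = u)
    (h : Fin k → Fin (k + 1)) :
    (Fin.cons u (fun b => σ (h b)) : Fin (k + 1) → Fin (k + 1)) =
      fun a => σ ((Fin.cons t h : Fin (k + 1) → Fin (k + 1)) a) := by
  funext a
  refine Fin.cases ?_ (fun b => ?_) a
  · rw [Fin.cons_zero, Fin.cons_zero, hσ]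
  · rw [Fin.cons_succ, Fin.cons_succ]

lemma cnt_eq (t u : Fin (k + 1)) : cnt t = cnt u := by
  classical
  unfold cnt
  apply Finset.card_bij (fun h _ => fun b => Equiv.swap t u (h b))
  · intro h hh
    rw [Finset.mem_filter] at hh ⊢
    refine ⟨Finset.mem_univ _, ?_⟩
    rw [cons_comp (Equiv.swap t u) (Equiv.swap_apply_left t u) h]
    exact (Equiv.swap t u).injective.comp hh.2
  · intro h _ h' _ he
    funext b
    exact (Equiv.swap t u).injective (congrFun he b)
  · intro h hh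
    rw [Finset.mem_filter] at hh
    refine ⟨fun b => Equiv.swap t u (h b), ?_, ?_⟩
    · rw [Finset.mem_filter]
      refine ⟨Finset.mem_univ _, ?_⟩
      rw [cons_comp (Equiv.swap t u) (Equiv.swap_apply_right t u) h]
      exact (Equiv.swap t u).injective.comp hh.2
    · funext b
      simp

lemma cnt_pos (t : Fin (k + 1)) : 0 < cnt t := by
  classical
  rw [cnt_eq t 0]
  unfold cnt
  apply Finset.card_pos.2
  refine ⟨Fin.succ, ?_⟩
  rw [Finset.mem_filter]
  refine ⟨Finset.mem_univ _, ?_⟩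
  have h : (Fin.cons 0 (Fin.succ : Fin k → Fin (k + 1)) : Fin (k + 1) → Fin (k + 1)) = id := by
    funext a
    refine Fin.cases ?_ (fun b => ?_) a
    · rfl
    · rfl
  rw [h]
  exact Function.injective_id

lemma ww_EE (t : Fin (k + 1)) : ww t * EE t = WW k * (cnt (0 : Fin (k + 1)) : ℂ) := by
  classical
  unfold EE
  rw [Finset.mul_sum, ← cnt_eq t 0]
  have h1 : ∀ h : Fin k → Fin (k + 1), ww t * ((∏ b, ww (h b)) * dt (Fin.cons t h) ^ 2) =
      if Function.Injective (Fin.cons t h : Fin (k + 1) → Fin (k + 1)) then WW k else 0 := by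
    intro h
    split_ifs with hi
    · have hb : Function.Bijective (Fin.cons t h : Fin (k + 1) → Fin (k + 1)) :=
        Finite.injective_iff_bijective.1 hi
      have e1 : ww t * ∏ b, ww (h b) = ∏ a : Fin (k + 1),
          ww ((Fin.cons t h : Fin (k + 1) → Fin (k + 1)) a) := by
        rw [Fin.prod_univ_succ]
        rfl
      have e2 : dt (Fin.cons t h) ^ 2 = 1 := dt_perm (Equiv.ofBijective _ hb)
      rw [← mul_assoc, e1, e2, mul_one]
      exact Equiv.prod_comp (Equiv.ofBijective _ hb) ww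
    · rw [dt_not_inj hi]
      ring
  rw [Finset.sum_congr rfl fun h _ => h1 h, ← Finset.sum_filter, Finset.sum_const, nsmul_eq_mul,
    mul_comm]
  rfl

lemma EE_eq (t : Fin (k + 1)) : EE t = WW k * (cnt (0 : Fin (k + 1)) : ℂ) / ww t := by
  rw [eq_div_iff (ww_ne t), mul_comm, ww_EE]

lemma EE_inj : Function.Injective (EE : Fin (k + 1) → ℂ) := by
  intro s t h
  rw [EE_eq, EE_eq, div_eq_div_iff (ww_ne s) (ww_ne t)] at h
  have h1 : WW k * (cnt (0 : Fin (k + 1)) : ℂ) ≠ 0 := by
    apply mul_ne_zero WW_ne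
    rw [Nat.cast_ne_zero]
    exact (cnt_pos _).ne'
  exact (ww_inj (mul_left_cancel₀ h1 h)).symm

/-- The main determinant. -/
theorem det_main (w φ : Fin (k + 1) → ℂ) (hw : ∀ t, w t ≠ 0) (hF : ∑ t, w t ≠ 0)
    (hφ : Function.Injective φ) :
    Matrix.det (Matrix.of fun m j : Fin k => w j.succ * (∑ t, w t * φ t ^ ((m : ℕ) + 1) -
      (∑ t, w t) * φ j.succ ^ ((m : ℕ) + 1))) ≠ 0 := by
  intro h0
  obtain ⟨v, hv, hv0⟩ := Matrix.exists_vecMul_eq_zero_iff.2 h0
  apply hv
  set F := ∑ t, w t with hFdef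
  set Pv : ℂ → ℂ := fun z => ∑ m : Fin k, v m * z ^ ((m : ℕ) + 1) with hP
  set s := ∑ t, w t * Pv (φ t) with hs
  have h1 : ∀ j : Fin k, s = F * Pv (φ j.succ) := by
    intro j
    have h2 := congrFun hv0 j
    rw [Matrix.vecMul, dotProduct, Pi.zero_apply] at h2
    simp only [Matrix.of_apply] at h2
    have h3 : ∑ m : Fin k, v m * (w j.succ * (∑ t, w t * φ t ^ ((m : ℕ) + 1) -
        F * φ j.succ ^ ((m : ℕ) + 1))) = w j.succ * (s - F * Pv (φ j.succ)) := by
      rw [hs, hP]
      simp only [Finset.mul_sum, mul_sub, Finset.sum_sub_distrib]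
      congr 1
      · rw [Finset.sum_comm]
        refine Finset.sum_congr rfl fun t _ => Finset.sum_congr rfl fun m _ => ?_
        ring
      · refine Finset.sum_congr rfl fun m _ => ?_
        ring
    rw [h3] at h2
    have h4 := (mul_eq_zero.1 h2).resolve_left (hw _)
    exact sub_eq_zero.1 h4
  have h2 : ∀ t, Pv (φ t) = s / F := by
    have h3 : ∀ j : Fin k, Pv (φ j.succ) = s / F := by
      intro j
      rw [eq_div_iff hF, mul_comm, ← h1 j]
    intro t
    refine Fin.cases ?_ (fun j => h3 j) t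
    have h4 : s = w 0 * Pv (φ 0) + ∑ j : Fin k, w j.succ * Pv (φ j.succ) := by
      rw [hs, Fin.sum_univ_succ]
    rw [Finset.sum_congr rfl (fun j _ => by rw [h3 j]), ← Finset.sum_mul] at h4
    have h5 : F = w 0 + ∑ j : Fin k, w j.succ := by
      rw [hFdef, Fin.sum_univ_succ]
    have h6 : w 0 * (F * Pv (φ 0) - s) = 0 := by
      have h7 : (s / F) * F = s := div_mul_cancel₀ _ hF
      linear_combination (-F) * h4 - (∑ j : Fin k, w j.succ) * h7 + s * h5
    have h8 := (mul_eq_zero.1 h6).resolve_left (hw 0)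
    rw [eq_div_iff hF]
    linear_combination h8
  have h3 : (Fin.cons (-(s / F)) v : Fin (k + 1) → ℂ) = 0 := by
    apply Matrix.eq_zero_of_forall_index_sum_mul_pow_eq_zero hφ
    intro t
    rw [Fin.sum_univ_succ]
    have h4 := h2 t
    simp only [Fin.cons_zero, Fin.cons_succ, Fin.val_zero, pow_zero, Fin.val_succ]
    rw [hP] at h4
    simp only at h4
    rw [h4]
    ring
  funext m
  have h4 := congrFun h3 m.succ
  rw [Fin.cons_succ] at h4
  exact h4

end Vale.Agent.P181.Z502
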