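import Vale.Agent.P181.Z.H502.Cov3

set_option autoImplicit false

/-!
Covariants on the rows `1, .., k`: the determinant does not vanish.
-/

namespace Vale.Agent.P181.Z502

open MvPolynomial Vale.Agent.P181 Vale.Agent.P181.H280 Vale.Agent.P181.H530.Torus
  Vale.Agent.P181.T4 Vale.Agent.P181.FR Vale.Agent.P181.Z.H592

variable {n k : ℕ}

lemma eval_mn {J : Type} [Fintype J] (hk : k + 1 ≤ n + 1) (g : Fin (k + 1) → J)
    (f : J → Fin (k + 1)) :
    eval (fun p : Fin (n + 1) × J => PP n (f p.2) p.1) (mn (Fin.castLE hk) g) =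
      dt (fun a => f (g a)) := by
  unfold mn dt
  rw [RingHom.map_det]
  congr 1
  ext a b
  rw [RingHom.mapMatrix_apply, Matrix.map_apply, Matrix.of_apply, Matrix.of_apply, eval_X]
  rfl

/-- The evaluation. -/
noncomputable def evk (n k : ℕ) : A (n + 1) →ₐ[ℂ] ℂ := ev (ww (k := k)) (PP n)

lemma evk_xx (n k a : ℕ) : evk n k (xx n a) = ∑ s : Fin (k + 1), ww s := by
  unfold evk xx
  rw [ev_lmJ]
  rw [← Equiv.sum_comp (Equiv.funUnique (Fin 1) (Fin (k + 1))).symm]
  refine Finset.sum_congr rfl fun s _ => ?_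
  rw [Fin.prod_univ_one, map_pow, eval_X, PP_zero, one_pow, mul_one]
  rfl

lemma evk_dd (hk : k + 1 ≤ n + 1) (a : ℕ) : evk n k (dd hk a) ≠ 0 := by
  classical
  unfold evk dd
  rw [ev_lmJ]
  have h1 : ∀ f : Fin (k + 1) → Fin (k + 1), (∏ j, ww (f j)) *
      eval (fun p : Fin (n + 1) × Fin (k + 1) => PP n (f p.2) p.1)
        (mn (Fin.castLE hk) id ^ 2 * ∏ j, X (0, j) ^ (a - 2)) =
      if Function.Injective f then WW k else 0 := by
    intro f
    rw [map_mul, map_pow, eval_mn, map_prod]
    have e1 : ∏ x : Fin (k + 1), eval (fun p : Fin (n + 1) × Fin (k + 1) => PP n (f p.2) p.1)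
        (X (0, x) ^ (a - 2)) = 1 := by
      apply Finset.prod_eq_one
      intro x _
      rw [map_pow, eval_X, PP_zero, one_pow]
    rw [e1, mul_one]
    split_ifs with hi
    · have hb : Function.Bijective f := Finite.injective_iff_bijective.1 hi
      have e2 : dt (fun a => f (id a)) ^ 2 = 1 := dt_perm (Equiv.ofBijective _ hb)
      rw [e2, mul_one]
      exact Equiv.prod_comp (Equiv.ofBijective _ hb) ww
    · have e2 : dt (fun a => f (id a)) = 0 := dt_not_inj hi
      rw [e2]
      ring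
  rw [Finset.sum_congr rfl fun f _ => h1 f, ← Finset.sum_filter, Finset.sum_const, nsmul_eq_mul]
  apply mul_ne_zero _ WW_ne
  rw [Nat.cast_ne_zero]
  apply (Finset.card_pos.2 _).ne'
  exact ⟨id, Finset.mem_filter.2 ⟨Finset.mem_univ _, Function.injective_id⟩⟩

/-- Splitting the points. -/
def eqJ (m k : ℕ) (ι : Type) : (JJ m k → ι) ≃ (ι × ι) × (Fin m → Fin k → ι) where
  toFun f := ((f (Sum.inl 0), f (Sum.inl 1)), fun s b => f (Sum.inr (s, b)))
  invFun x := Sum.elim ![x.1.1, x.1.2] (fun p => x.2 p.1 p.2)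
  left_inv f := by
    funext j
    rcases j with j | ⟨s, b⟩
    · fin_cases j <;> rfl
    · rfl
  right_inv x := rfl

lemma evk_LL (hk : k + 1 ≤ n + 1) (a m : ℕ) (t : Fin (n + 1)) :
    evk n k (LL hk a m t) = ∑ u : Fin (k + 1), ∑ v : Fin (k + 1),
      ww u * ww v * (PP n v t - PP n u t) * EE u ^ m := by
  classical
  unfold evk LL
  rw [ev_lmJ, ← Equiv.sum_comp (eqJ m k (Fin (k + 1))).symm, Fintype.sum_prod_type,
    Fintype.sum_prod_type]
  refine Finset.sum_congr rfl fun u _ => Finset.sum_congr rfl fun v _ => ?_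
  have h1 : ∀ F : Fin m → Fin k → Fin (k + 1),
      (∏ j, ww ((eqJ m k (Fin (k + 1))).symm ((u, v), F) j)) *
        eval (fun p : Fin (n + 1) × JJ m k =>
          PP n ((eqJ m k (Fin (k + 1))).symm ((u, v), F) p.2) p.1) (FF hk a m t) =
      ww u * ww v * (PP n v t - PP n u t) *
        ∏ s : Fin m, ((∏ b, ww (F s b)) * dt (Fin.cons u (F s)) ^ 2) := by
    intro F
    have e1 : ∏ j, ww ((eqJ m k (Fin (k + 1))).symm ((u, v), F) j) =
        ww u * ww v * ∏ s : Fin m, ∏ b, ww (F s b) := by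
      rw [Fintype.prod_sum_type, Fin.prod_univ_two, Fintype.prod_prod_type]
      rfl
    have e2 : ∀ s : Fin m, (fun a : Fin (k + 1) =>
        (eqJ m k (Fin (k + 1))).symm ((u, v), F) (gs s a)) = Fin.cons u (F s) := by
      intro s
      funext c
      refine Fin.cases ?_ (fun b => ?_) c
      · rfl
      · rfl
    have e3 : eval (fun p : Fin (n + 1) × JJ m k =>
          PP n ((eqJ m k (Fin (k + 1))).symm ((u, v), F) p.2) p.1) (FF hk a m t) =
        (PP n v t - PP n u t) * ∏ s : Fin m, dt (Fin.cons u (F s)) ^ 2 := by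
      unfold FF
      rw [map_mul, map_mul, map_prod, map_mul, map_mul, map_prod]
      have e4 : ∏ x : Fin m × Fin k, eval (fun p : Fin (n + 1) × JJ m k =>
          PP n ((eqJ m k (Fin (k + 1))).symm ((u, v), F) p.2) p.1)
            (X (0, Sum.inr x) ^ (a - 2)) = 1 := by
        apply Finset.prod_eq_one
        intro x _
        rw [map_pow, eval_X, PP_zero, one_pow]
      have e5 : ∀ s : Fin m, eval (fun p : Fin (n + 1) × JJ m k =>
          PP n ((eqJ m k (Fin (k + 1))).symm ((u, v), F) p.2) p.1)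
            (mn (Fin.castLE hk) (gs s) ^ 2) = dt (Fin.cons u (F s)) ^ 2 := by
        intro s
        rw [map_pow, eval_mn, e2]
      have e6 : eval (fun p : Fin (n + 1) × JJ m k =>
          PP n ((eqJ m k (Fin (k + 1))).symm ((u, v), F) p.2) p.1)
            (m2 0 t (Sum.inl 0) (Sum.inl 1)) = PP n v t - PP n u t := by
        unfold m2
        rw [map_sub, map_mul, map_mul, eval_X, eval_X, eval_X, eval_X]
        simp only
        rw [PP_zero, PP_zero, one_mul, mul_one]
        rfl
      rw [e4, e6, Finset.prod_congr rfl fun s _ => e5 s, map_pow, map_pow, eval_X, eval_X, PP_zero,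
        PP_zero, one_pow, one_pow, mul_one, mul_one, mul_one]
    rw [e1, e3, Finset.prod_mul_distrib]
    ring
  rw [Finset.sum_congr rfl fun F _ => h1 F, ← Finset.mul_sum]
  congr 1
  have h2 : EE u ^ m = ∏ _s : Fin m, ∑ h : Fin k → Fin (k + 1),
      (∏ b, ww (h b)) * dt (Fin.cons u h) ^ 2 := by
    rw [Finset.prod_const, Finset.card_univ, Fintype.card_fin]
    rfl
  rw [h2, Finset.prod_univ_sum, Fintype.piFinset_univ]

lemma evk_LL' (hk : k + 1 ≤ n + 1) (a m : ℕ) (j : Fin k) :
    evk n k (LL hk a m (Fin.castLE hk j.succ)) = ww j.succ *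
      (∑ t : Fin (k + 1), ww t * EE t ^ m - (∑ t : Fin (k + 1), ww t) * EE j.succ ^ m) := by
  have h1 : ∀ v : Fin (k + 1), PP n v (Fin.castLE hk j.succ) = if v = j.succ then 1 else 0 := by
    intro v
    unfold PP
    by_cases hv : v = j.succ
    · rw [if_pos hv, if_pos]
      right
      rw [hv]
      rfl
    · rw [if_neg hv, if_neg]
      rintro (h | h)
      · simp at h
      · exact hv (Fin.ext (by rw [← h]; rfl))
  rw [evk_LL]
  simp only [h1]
  have h2 : ∀ u v : Fin (k + 1), ww u * ww v * ((if v = j.succ then (1 : ℂ) else 0) -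
      if u = j.succ then 1 else 0) * EE u ^ m =
      (if v = j.succ then ww j.succ * (ww u * EE u ^ m) else 0) -
        if u = j.succ then ww v * (ww j.succ * EE j.succ ^ m) else 0 := by
    intro u v
    split_ifs with hv hu hu
    · rw [hv, hu]; ring
    · rw [hv]; ring
    · rw [hu]; ring
    · ring
  simp only [h2, Finset.sum_sub_distrib, Finset.sum_ite_eq', Finset.mem_univ, if_true]
  rw [← Finset.mul_sum]
  have h3 : ∑ u : Fin (k + 1), ∑ v : Fin (k + 1),
      (if u = j.succ then ww v * (ww j.succ * EE j.succ ^ m) else 0) =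
      (∑ v : Fin (k + 1), ww v) * (ww j.succ * EE j.succ ^ m) := by
    rw [Finset.sum_eq_single j.succ]
    · simp only [if_true]
      rw [← Finset.sum_mul]
    · intro u _ hu
      simp only [if_neg hu, Finset.sum_const_zero]
    · intro h
      exact absurd (Finset.mem_univ _) h
  rw [h3]
  ring

/-- **The determinant of the covariants does not vanish.** -/
theorem det_lk_ne (hk : k + 1 ≤ n + 1) (a : ℕ) :
    Matrix.det (Matrix.of fun m j : Fin k => lk hk a ((m : ℕ) + 1) (Fin.castLE hk j.succ)) ≠ 0 := by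
  intro h0
  have h1 := congrArg (evk n k) h0
  rw [map_zero, AlgHom.map_det] at h1
  have h2 : (evk n k).mapMatrix
      (Matrix.of fun m j : Fin k => lk hk a ((m : ℕ) + 1) (Fin.castLE hk j.succ)) =
      Matrix.of fun m j : Fin k =>
        (evk n k (dd hk a) ^ (k - ((m : ℕ) + 1)) * evk n k (xx n a) ^ ((m : ℕ) + 1)) *
        (Matrix.of fun m j : Fin k => ww j.succ * (∑ t : Fin (k + 1), ww t * EE t ^ ((m : ℕ) + 1) -
          (∑ t : Fin (k + 1), ww t) * EE j.succ ^ ((m : ℕ) + 1))) m j := by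
    ext m j
    rw [AlgHom.mapMatrix_apply, Matrix.map_apply, Matrix.of_apply, Matrix.of_apply,
      Matrix.of_apply, lk, map_mul, map_mul, map_pow, map_pow, evk_LL']
    ring
  rw [h2, Matrix.det_mul_column] at h1
  rcases mul_eq_zero.1 h1 with h3 | h3
  · rw [Finset.prod_eq_zero_iff] at h3
    obtain ⟨m, -, h4⟩ := h3
    rcases mul_eq_zero.1 h4 with h5 | h5
    · exact pow_ne_zero _ (evk_dd hk a) h5
    · exact pow_ne_zero _ (by rw [evk_xx]; exact sum_ww_ne) h5
  · exact det_main ww EE ww_ne sum_ww_ne EE_inj h3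

/-- **The covariants on the rows `1, .., k`.** -/
theorem exists_cov (hk : k + 1 ≤ n + 1) {a : ℕ} (ha : 2 * k + 1 ≤ a) (ha2 : 2 ≤ a)
    (hk1 : 0 < k) :
    ∃ (nu : Fin (n + 1) → ℕ) (l : Fin k → A (n + 1)),
      (∀ r, l r ∈ HA (n + 1) (2 + k * (k + 1)) a nu) ∧
      (∀ i : Fin (n + 1), (i : ℕ) = 1 → nu i = 2 * k + 1) ∧
      (∀ i : Fin (n + 1), 2 ≤ (i : ℕ) → (i : ℕ) ≤ k → nu i = 2 * k) ∧
      (∀ i : Fin (n + 1), k < (i : ℕ) → nu i = 0) ∧
      Matrix.det (Matrix.of fun r j : Fin k => if (j : ℕ) = 0 then l r else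
        E (Fin.castLE hk j.succ) (Fin.castLE hk (Fin.succ ⟨0, hk1⟩)) (l r)) ≠ 0 := by
  set t0 : Fin (n + 1) := Fin.castLE hk (Fin.succ ⟨0, hk1⟩) with ht0
  have ht : (t0 : ℕ) = 1 := rfl
  have hblk : ∀ i : Fin (n + 1), blk hk i = if (i : ℕ) ≤ k then 1 else 0 := by
    intro i
    unfold blk
    rw [Finset.sum_apply]
    simp only [Pi.single_apply]
    split_ifs with h
    · rw [Finset.sum_eq_single ⟨i, by omega⟩]
      · rw [if_pos]
        rfl
      · intro b _ hb
        rw [if_neg]
        intro h1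
        apply hb
        apply Fin.ext
        exact (congrArg Fin.val h1).symm
      · intro h1
        exact absurd (Finset.mem_univ _) h1
    · apply Finset.sum_eq_zero
      intro b _
      rw [if_neg]
      intro h1
      apply h
      rw [h1]
      exact Nat.lt_succ_iff.1 b.2
  have hs0 : ∀ i : Fin (n + 1), (i : ℕ) ≠ 0 → (Pi.single 0 1 : Fin (n + 1) → ℕ) i = 0 := by
    intro i hi
    rw [Pi.single_apply, if_neg]
    intro h
    exact hi (by rw [h]; rfl)
  have hs1 : ∀ i : Fin (n + 1), (i : ℕ) ≠ 1 → (Pi.single t0 1 : Fin (n + 1) → ℕ) i = 0 := by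
    intro i hi
    rw [Pi.single_apply, if_neg]
    intro h
    exact hi (by rw [h]; rfl)
  refine ⟨nu hk a t0, fun r => lk hk a ((r : ℕ) + 1) t0, ?_, ?_, ?_, ?_, ?_⟩
  · intro r
    have := r.2
    exact lk_mem_HA hk (by omega) ha2 (by omega) t0 ht
  · intro i hi
    have h1 : i = t0 := Fin.ext (by rw [hi, ht])
    simp only [nu, Pi.add_apply, Pi.smul_apply, smul_eq_mul]
    rw [hs0 i (by omega), hblk, if_pos (by omega), h1, Pi.single_eq_same]
    omega
  · intro i hi hi'
    simp only [nu, Pi.add_apply, Pi.smul_apply, smul_eq_mul]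
    rw [hs0 i (by omega), hs1 i (by omega), hblk, if_pos hi']
    omega
  · intro i hi
    simp only [nu, Pi.add_apply, Pi.smul_apply, smul_eq_mul]
    rw [hs0 i (by omega), hs1 i (by omega), hblk, if_neg (by omega), mul_zero, mul_zero]
    rfl
  · have h1 : (Matrix.of fun r j : Fin k => if (j : ℕ) = 0 then lk hk a ((r : ℕ) + 1) t0 else
        E (Fin.castLE hk j.succ) t0 (lk hk a ((r : ℕ) + 1) t0)) =
        Matrix.of fun m j : Fin k => lk hk a ((m : ℕ) + 1) (Fin.castLE hk j.succ) := by
      ext1 r j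
      rw [Matrix.of_apply, Matrix.of_apply]
      split_ifs with hj
      · congr 1
        apply Fin.ext
        rw [ht]
        simp [hj]
      · rw [E_lk hk a _ t0 (s := Fin.castLE hk j.succ) (i := t0), if_pos rfl]
        refine ⟨?_, ?_, Or.inl ⟨j.succ, rfl⟩⟩
        · intro h
          apply hj
          have := congrArg Fin.val h
          rw [ht] at this
          simpa using this
        · intro h
          rw [h] at ht
          simp at ht
    rw [h1]
    exact det_lk_ne hk a

end Vale.Agent.P181.Z502
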