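import Vale.Agent.P181.Z.H592.Real

set_option autoImplicit false

/-!
The letter map for an arbitrary finite set of points, and its values at sums of point masses.
-/

namespace Vale.Agent.P181.Z502

open MvPolynomial Vale.Agent.P181 Vale.Agent.P181.H280 Vale.Agent.P181.H530.Torus
  Vale.Agent.P181.T4 Vale.Agent.P181.FR Vale.Agent.P181.Z.H592

variable {n : ℕ} {J : Type} [Fintype J] [DecidableEq J]

/-- The row operators on functions of points. -/
noncomputable def rJ (J : Type) [Fintype J] (s i : Fin n) :
    Derivation ℂ (MvPolynomial (Fin n × J) ℂ) (MvPolynomial (Fin n × J) ℂ) :=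
  mkDerivation ℂ (fun p => if p.1 = i then X (s, p.2) else 0)

omit [DecidableEq J] in
lemma rJ_X (s i : Fin n) (p : Fin n × J) :
    rJ J s i (X p) = if p.1 = i then X (s, p.2) else 0 := by
  rw [rJ, mkDerivation_X]

lemma sum_deriv {R : Type*} [CommRing R] [Algebra ℂ R] {κ : Type*} (T : Finset κ)
    (D : κ → Derivation ℂ R R) (x : R) : (∑ j ∈ T, D j) x = ∑ j ∈ T, D j x := by
  classical
  induction T using Finset.induction_on with
  | empty => rfl
  | insert a T ha ih =>
    rw [Finset.sum_insert ha, Finset.sum_insert ha, Derivation.add_apply, ih]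

omit [DecidableEq J] in
lemma rJ_apply (s i : Fin n) (f : MvPolynomial (Fin n × J) ℂ) :
    rJ J s i f = ∑ j : J, X (s, j) * pderiv (i, j) f := by
  classical
  have h : rJ J s i = ∑ j : J, (X (s, j) : MvPolynomial (Fin n × J) ℂ) • pderiv (i, j) := by
    apply MvPolynomial.derivation_ext
    intro p
    rw [rJ_X, sum_deriv]
    simp only [Derivation.smul_apply, smul_eq_mul]
    by_cases h1 : p.1 = i
    · rw [if_pos h1, Finset.sum_eq_single p.2]
      · have : (i, p.2) = p := by rw [← h1]
        rw [this, pderiv_X_self, mul_one]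
      · intro j _ hj
        rw [pderiv_X_of_ne, mul_zero]
        intro h2
        exact hj (congrArg Prod.snd h2).symm
      · intro h2
        exact absurd (Finset.mem_univ _) h2
    · rw [if_neg h1, Finset.sum_eq_zero]
      intro j _
      rw [pderiv_X_of_ne, mul_zero]
      intro h2
      exact h1 (congrArg Prod.fst h2)
  rw [h, sum_deriv]
  rfl

/-- The product of the letters of the points. -/
noncomputable def lmonJ (m : Fin n × J →₀ ℕ) : A n := ∏ j : J, X (fun i => m (i, j))

/-- The letter map. -/
noncomputable def lmJ (n : ℕ) (J : Type) [Fintype J] :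
    MvPolynomial (Fin n × J) ℂ →ₗ[ℂ] A n :=
  (basisMonomials (Fin n × J) ℂ).constr ℂ lmonJ

omit [DecidableEq J] in
lemma lmJ_monomial (m : Fin n × J →₀ ℕ) : lmJ n J (monomial m 1) = lmonJ m := by
  have h := (basisMonomials (Fin n × J) ℂ).constr_basis ℂ lmonJ m
  rwa [coe_basisMonomials] at h

/-- The letter map commutes with the row operators. -/
theorem lmJ_rJ (s i : Fin n) (f : MvPolynomial (Fin n × J) ℂ) :
    lmJ n J (rJ J s i f) = E s i (lmJ n J f) := by
  classical
  have key : (lmJ n J) ∘ₗ (rJ J s i : MvPolynomial (Fin n × J) ℂ →ₗ[ℂ] _) =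
      (E s i : A n →ₗ[ℂ] A n) ∘ₗ (lmJ n J) := by
    apply (basisMonomials (Fin n × J) ℂ).ext
    intro m
    rw [coe_basisMonomials, LinearMap.comp_apply, LinearMap.comp_apply, lmJ_monomial]
    change lmJ n J (rJ J s i (monomial m 1)) = E s i (lmonJ m)
    rw [rJ_apply, map_sum, lmonJ, Z.H592.deriv_prod]
    refine Finset.sum_congr rfl fun j _ => ?_
    rw [pderiv_monomial, one_mul, X, monomial_mul, one_mul, E_X]
    have h1 : monomial (Finsupp.single (s, j) 1 + (m - Finsupp.single (i, j) 1)) (m (i, j) : ℂ) =
        (m (i, j) : ℂ) • monomial (Finsupp.single (s, j) 1 + (m - Finsupp.single (i, j) 1))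
          (1 : ℂ) := by
      rw [smul_monomial, smul_eq_mul, mul_one]
    rw [h1, map_smul, lmJ_monomial, mul_smul_comm]
    by_cases h0 : m (i, j) = 0
    · rw [h0, Nat.cast_zero, zero_smul, zero_smul]
    congr 1
    rw [lmonJ, ← Finset.mul_prod_erase _ _ (Finset.mem_univ j), mul_comm]
    congr 1
    · refine Finset.prod_congr rfl fun j' hj' => ?_
      have hne : j' ≠ j := Finset.ne_of_mem_erase hj'
      congr 1
      funext r
      rw [Finsupp.add_apply, Finsupp.tsub_apply, Finsupp.single_apply, Finsupp.single_apply,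
        if_neg (fun h => hne (Prod.mk.inj h).2.symm), if_neg (fun h => hne (Prod.mk.inj h).2.symm),
        zero_add, Nat.sub_zero]
    · congr 1
      funext r
      rw [Finsupp.add_apply, Finsupp.tsub_apply, Finsupp.single_apply, Finsupp.single_apply,
        mvL_apply]
      simp only [Prod.mk.injEq, and_true]
      rcases eq_or_ne r i with rfl | h
      · rw [if_pos rfl]
        have : (if s = r then 1 else 0) = (if r = s then 1 else 0) := by
          simp only [eq_comm]
        rw [this]
        omega
      · rw [if_neg h, if_neg (Ne.symm h)]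
        have : (if s = r then 1 else 0) = (if r = s then 1 else 0) := by
          simp only [eq_comm]
        rw [this]
        omega
  exact LinearMap.congr_fun key f

/-- The grading of functions of points: (degree in each point, total degree in each row). -/
noncomputable def wJ : Fin n × J → (J → ℕ) × (Fin n → ℕ) := fun p =>
  (Pi.single p.2 1, Pi.single p.1 1)

/-- Homogeneous functions of points are mapped to weight vectors. -/
theorem lmJ_mem_WA {a N : ℕ} (hN : Fintype.card J = N) {mu : Fin n → ℕ}
    {f : MvPolynomial (Fin n × J) ℂ}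
    (hf : IsWeightedHomogeneous (wJ (J := J)) f (fun _ => a, mu)) : lmJ n J f ∈ WA n N a mu := by
  classical
  have h1 : f = ∑ m ∈ f.support, coeff m f • monomial m (1 : ℂ) := by
    conv_lhs => rw [← support_sum_monomial_coeff f]
    refine Finset.sum_congr rfl fun m _ => ?_
    rw [smul_monomial, smul_eq_mul, mul_one]
  rw [h1, map_sum]
  refine Submodule.sum_mem _ fun m hm => ?_
  rw [map_smul, lmJ_monomial]
  refine Submodule.smul_mem _ _ ?_
  have h2 := hf (MvPolynomial.mem_support_iff.1 hm)
  have h3 : Finsupp.weight (wJ (J := J)) m = ∑ p : Fin n × J, m p • wJ (J := J) p := by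
    rw [Finsupp.weight_apply, Finsupp.sum_fintype]
    intro p
    rw [zero_smul]
  rw [h3] at h2
  have hcol : ∀ j : J, ∑ i, m (i, j) = a := by
    intro j
    have h4 : (∑ p : Fin n × J, m p • wJ (J := J) p).1 j = a := congrFun (congrArg Prod.fst h2) j
    rw [Prod.fst_sum, Finset.sum_apply, Fintype.sum_prod_type] at h4
    rw [← h4]
    refine Finset.sum_congr rfl fun i _ => ?_
    rw [Finset.sum_eq_single j]
    · simp [wJ]
    · intro j' _ hj'
      simp [wJ, Pi.single_eq_of_ne (Ne.symm hj')]
    · intro h5
      exact absurd (Finset.mem_univ _) h5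
  have hrow : ∀ i, ∑ j : J, m (i, j) = mu i := by
    intro i
    have h4 : (∑ p : Fin n × J, m p • wJ (J := J) p).2 i = mu i :=
      congrFun (congrArg Prod.snd h2) i
    rw [Prod.snd_sum, Finset.sum_apply, Fintype.sum_prod_type] at h4
    rw [← h4, Finset.sum_eq_single i]
    · refine Finset.sum_congr rfl fun j _ => ?_
      simp [wJ]
    · intro i' _ hi'
      apply Finset.sum_eq_zero
      intro j _
      simp [wJ, Pi.single_eq_of_ne (Ne.symm hi')]
    · intro h5
      exact absurd (Finset.mem_univ _) h5
  intro d hd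
  have h5 : lmonJ m = monomial (Multiset.toFinsupp
      (Multiset.map (fun j : J => fun i : Fin n => m (i, j)) Finset.univ.val)) (1 : ℂ) := by
    have h : ∀ s : Multiset (Fin n → ℕ),
        monomial (Multiset.toFinsupp s) (1 : ℂ) = (s.map (X : (Fin n → ℕ) → A n)).prod := by
      intro s
      induction s using Multiset.induction_on with
      | empty => simp
      | cons v s ih =>
        rw [Multiset.map_cons, Multiset.prod_cons, ← ih, ← Multiset.singleton_add, map_add,
          Multiset.toFinsupp_singleton, X, monomial_mul, one_mul]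
    rw [h, Multiset.map_map]
    rfl
  rw [h5, coeff_monomial] at hd
  have h6 : Multiset.toFinsupp
      (Multiset.map (fun j : J => fun i : Fin n => m (i, j)) Finset.univ.val) = d := by
    by_contra hne
    rw [if_neg hne] at hd
    exact hd rfl
  rw [← h6, Multiset.toFinsupp_toMultiset]
  refine ⟨?_, ?_, ?_⟩
  · rw [Multiset.card_map]
    exact hN
  · intro v hv
    obtain ⟨j, -, rfl⟩ := Multiset.mem_map.1 hv
    exact hcol j
  · funext i
    rw [← hrow i]
    have h7 : (Multiset.map (fun j : J => fun i : Fin n => m (i, j)) Finset.univ.val).sum =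
        ∑ j : J, fun i : Fin n => m (i, j) := rfl
    rw [h7, Finset.sum_apply]

/-- Evaluation at a sum of point masses. -/
noncomputable def ev {ι : Type} [Fintype ι] (w : ι → ℂ) (P : ι → Fin n → ℂ) : A n →ₐ[ℂ] ℂ :=
  aeval (fun v => ∑ s, w s * ∏ i, P s i ^ v i)

theorem ev_lmJ {ι : Type} [Fintype ι] [DecidableEq ι] (w : ι → ℂ) (P : ι → Fin n → ℂ)
    (F : MvPolynomial (Fin n × J) ℂ) :
    ev w P (lmJ n J F) = ∑ f : J → ι, (∏ j, w (f j)) * eval (fun p => P (f p.2) p.1) F := by
  classical
  have key : (ev w P).toLinearMap ∘ₗ (lmJ n J) =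
      ∑ f : J → ι, (∏ j, w (f j)) • (aeval (fun p : Fin n × J => P (f p.2) p.1) :
        MvPolynomial (Fin n × J) ℂ →ₐ[ℂ] ℂ).toLinearMap := by
    apply (basisMonomials (Fin n × J) ℂ).ext
    intro m
    rw [coe_basisMonomials, LinearMap.comp_apply, lmJ_monomial, LinearMap.sum_apply]
    rw [AlgHom.toLinearMap_apply, lmonJ, map_prod]
    simp only [ev, aeval_X]
    rw [Finset.prod_univ_sum]
    rw [Fintype.piFinset_univ]
    refine Finset.sum_congr rfl fun f _ => ?_
    rw [LinearMap.smul_apply, AlgHom.toLinearMap_apply, aeval_monomial, map_one, one_mul,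
      smul_eq_mul, Finset.prod_mul_distrib]
    congr 1
    rw [Finsupp.prod_fintype _ _ (fun p => pow_zero _), Fintype.prod_prod_type_right]
  have h := LinearMap.congr_fun key F
  rw [LinearMap.comp_apply, LinearMap.sum_apply] at h
  rw [AlgHom.toLinearMap_apply] at h
  rw [h]
  refine Finset.sum_congr rfl fun f _ => ?_
  rw [LinearMap.smul_apply, AlgHom.toLinearMap_apply, smul_eq_mul]
  rfl

end Vale.Agent.P181.Z502
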